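import Vale.Agent.P281.H64.Gen.Spec
import Vale.Agent.P281.ISO.Ext3

/-! P281, project T-V, blocks V2 and V3 (helper383): Riemann's extension theorem across small sets,
by Baire's theorem; the complement of a small set is dense and connected. -/

open scoped Manifold ContDiff Topology
open Set Filter

set_option linter.unusedSectionVars false

noncomputable section

namespace Vale.Agent.P281.H383.Gen

open Vale.Agent.P281 Vale.Agent.P281.MF Vale.Agent.P281.J
open Vale.Agent.P281.H64 Vale.Agent.P281.H64.Gen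
open Vale.Agent.P281.H64.Thin (IsThinSet)

section Baire

variable {X : Type} [TopologicalSpace X] [T2Space X]

/-- Baire's theorem on a closed subset. -/
theorem baire_closed [LocallyCompactSpace X] {A : Set X} (hA : IsClosed A) (hne : A.Nonempty)
    {H : ℕ → Set X} (hH : ∀ k, IsClosed (H k)) (hsub : A ⊆ ⋃ k, H k) :
    ∃ k, ∃ x ∈ A, ∃ N : Set X, IsOpen N ∧ x ∈ N ∧ A ∩ N ⊆ H k := by
  have : Nonempty A := hne.to_subtype
  have : LocallyCompactSpace A := hA.isClosedEmbedding_subtypeVal.locallyCompactSpace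
  obtain ⟨k, ⟨y, hy⟩⟩ := nonempty_interior_of_iUnion_of_closed
    (f := fun k => (Subtype.val ⁻¹' (H k) : Set A)) (fun k => (hH k).preimage continuous_subtype_val)
    (by
      rw [eq_univ_iff_forall]
      intro y
      obtain ⟨k, hk⟩ := mem_iUnion.1 (hsub y.2)
      exact mem_iUnion.2 ⟨k, hk⟩)
  obtain ⟨O, hO1, hO2, hO3⟩ := mem_interior.1 hy
  obtain ⟨N, hN, rfl⟩ := isOpen_induced_iff.1 hO2
  exact ⟨k, y, y.2, N, hN, hO3, fun z hz => hO1 (show (⟨z, hz.1⟩ : A) ∈ Subtype.val ⁻¹' N from hz.2)⟩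

end Baire

variable {n : ℕ} {X : Type} [TopologicalSpace X] [ChartedSpace (Cm n) X]

theorem dense_compl_thin {S : Set X} (h : IsThinSet (Cm n) S) : Dense Sᶜ := by
  intro y
  obtain ⟨g, hg, hne, hev⟩ := h.2 y
  rw [mem_closure_iff_frequently]
  intro hcon
  apply hne
  filter_upwards [hcon, hev] with z hz hz'
  exact hz' (not_not.1 hz)

variable [T2Space X]

/-- The complement of a small set is dense. -/
theorem dense_compl_small {S : Set X} (h : IsSmallSet (Cm n) S) : Dense Sᶜ := by
  have : LocallyCompactSpace X := ChartedSpace.locallyCompactSpace (Cm n) X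
  obtain ⟨-, H, hH, hS⟩ := h
  have h1 : Dense (⋂ k, (H k)ᶜ) := dense_iInter_of_isOpen_nat (fun k => (hH k).1.isOpen_compl)
    fun k => dense_compl_thin (hH k)
  refine h1.mono fun z hz hzS => ?_
  obtain ⟨k, hk⟩ := mem_iUnion.1 (hS hzS)
  exact mem_iInter.1 hz k hk

variable [IsManifold 𝓘(ℂ, Cm n) ω X]

/-- Near `x`, the function `g` does not vanish on any open set. -/
theorem ne_freq {g : X → ℂ} {x : X} (hD : HolV (Cm n) g x)
    (hne : ¬ ∀ᶠ z in 𝓝 x, g z = 0) : ∀ᶠ y in 𝓝 x, ∃ᶠ z in 𝓝 y, g z ≠ 0 := by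
  set φ := chartAt (Cm n) x with hφ
  have hx : x ∈ φ.source := mem_chart_source (Cm n) x
  obtain ⟨r, hr, hball⟩ := Metric.mem_nhds_iff.1 (inter_mem
    (rep_analytic hD).eventually_analyticAt (φ.open_target.mem_nhds (φ.map_source hx)))
  have hana : AnalyticOnNhd ℂ (g ∘ φ.symm) (Metric.ball (φ x) r) := fun w hw => (hball hw).1
  filter_upwards [(tendsto_chart x).eventually (Metric.ball_mem_nhds (φ x) hr),
    φ.open_source.mem_nhds hx] with y hy hys
  intro hcon
  have hcon' : ∀ᶠ z in 𝓝 y, g z = 0 := hcon.mono fun z hz => not_not.1 hz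
  have hsy : Tendsto φ.symm (𝓝 (φ y)) (𝓝 y) := by
    have := (φ.continuousAt_symm (φ.map_source hys)).tendsto
    rwa [φ.left_inv hys] at this
  have hz : (g ∘ φ.symm) =ᶠ[𝓝 (φ y)] 0 := hsy.eventually hcon'
  have hall := hana.eqOn_zero_of_preconnected_of_eventuallyEq_zero
    (convex_ball _ _).isPreconnected hy hz
  apply hne
  filter_upwards [(tendsto_chart x).eventually (Metric.ball_mem_nhds (φ x) hr),
    φ.open_source.mem_nhds hx] with z hz hzs
  have h1 : g (φ.symm (φ z)) = 0 := hall hz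
  rwa [φ.left_inv hzs] at h1

/-- Two functions continuous at `z` which are equal on a set accumulating at `z` have the same
value. -/
theorem eq_of_freq {f g : X → ℂ} {z : X} (hf : ContinuousAt f z) (hg : ContinuousAt g z)
    (h : ∃ᶠ t in 𝓝 z, f t = g t) : f z = g z := by
  by_contra hcon
  have h5 : ContinuousAt (fun y => f y - g y) z := hf.sub hg
  refine h ?_
  filter_upwards [h5.eventually_ne (sub_ne_zero.2 hcon)] with y hy
  exact sub_ne_zero.1 hy

/-- `x` is a point near which `u` extends. -/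
def Reg (S : Set X) (u : X → ℂ) (x : X) : Prop :=
  ∃ Q : X → ℂ, HolV (Cm n) Q x ∧ ∀ᶠ z in 𝓝 x, z ∉ S → u z = Q z

theorem extend {S : Set X} {u : X → ℂ} (hS : IsSmallSet (Cm n) S)
    (hu : ∀ x, x ∉ S → HolV (Cm n) u x)
    (hb : ∀ x, ∃ C : ℝ, ∀ᶠ z in 𝓝 x, z ∉ S → ‖u z‖ ≤ C) :
    ∃ v : X → ℂ, (∀ x, HolV (Cm n) v x) ∧ ∀ x, x ∉ S → v x = u x := by
  classical
  have : LocallyCompactSpace X := ChartedSpace.locallyCompactSpace (Cm n) X
  have hdense : Dense Sᶜ := dense_compl_small hS
  have hfr : ∀ z, ∃ᶠ t in 𝓝 z, t ∉ S := fun z => mem_closure_iff_frequently.1 (hdense z)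
  have hSo : IsOpen Sᶜ := hS.1.isOpen_compl
  set V : Set X := {x | Reg (n := n) S u x} with hV
  have hVev : ∀ x ∈ V, ∀ᶠ y in 𝓝 x, y ∈ V := by
    rintro x ⟨Q, hQ, hQe⟩
    filter_upwards [hQ.eventually, eventually_eventually_nhds.2 hQe] with y h1 h2
    exact ⟨Q, h1, h2⟩
  have hVo : IsOpen V := isOpen_iff_mem_nhds.2 hVev
  have hSV : Sᶜ ⊆ V := fun x hx => ⟨u, hu x hx, Eventually.of_forall fun z _ => rfl⟩
  -- the extension on `V`
  have hch : ∀ x, ∃ Q : X → ℂ, x ∈ V → HolV (Cm n) Q x ∧ ∀ᶠ z in 𝓝 x, z ∉ S → u z = Q z := by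
    intro x
    by_cases hx : x ∈ V
    · obtain ⟨Q, hQ⟩ := hx
      exact ⟨Q, fun _ => hQ⟩
    · exact ⟨0, fun h => absurd h hx⟩
  choose Q hQ using hch
  set w : X → ℂ := fun z => Q z z with hw
  have hwQ : ∀ y ∈ V, w =ᶠ[𝓝 y] Q y := by
    intro y hy
    obtain ⟨h1, h2⟩ := hQ y hy
    filter_upwards [h1.eventually, eventually_eventually_nhds.2 h2, hVev y hy] with z h3 h4 h5
    obtain ⟨h6, h7⟩ := hQ z h5
    show Q z z = Q y z
    refine eq_of_freq (f := Q z) (g := Q y) h6.continuousAt h3.continuousAt ?_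
    refine ((hfr z).and_eventually (h4.and h7)).mono ?_
    rintro t ⟨ht1, ht2, ht3⟩
    rw [← ht2 ht1, ← ht3 ht1]
  have hwV : ∀ y ∈ V, HolV (Cm n) w y := fun y hy => (hQ y hy).1.congr (hwQ y hy)
  have hwu : ∀ y, y ∉ S → w y = u y := fun y hy => ((hQ y (hSV hy)).2.self_of_nhds hy).symm
  have hwb : ∀ (C : ℝ) (y : X), y ∈ V → (∀ᶠ t in 𝓝 y, t ∉ S → ‖u t‖ ≤ C) → ‖w y‖ ≤ C := by
    intro C y hy hC
    by_contra hcon
    rw [not_le] at hcon
    have h1 : ContinuousAt (fun t => ‖w t‖) y := (hwV y hy).continuousAt.norm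
    obtain ⟨t, ht1, ht2, ht3⟩ := ((hfr y).and_eventually
      ((h1.eventually_const_lt hcon).and hC)).exists
    have := ht3 ht1
    rw [← hwu t ht1] at this
    exact absurd this (not_le.2 ht2)
  -- Baire
  have hVu : V = univ := by
    by_contra hne
    obtain ⟨-, H, hH, hSH⟩ := hS
    obtain ⟨k, x, hx, N, hN, hxN, hNk⟩ := baire_closed hVo.isClosed_compl
      (nonempty_compl.2 hne) (fun k => (hH k).1)
      ((compl_subset_comm.1 hSV).trans hSH)
    obtain ⟨g, hg, hgne, hge⟩ := (hH k).2 x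
    have hg' : HolV (Cm n) g x := hg
    have hgV : ∀ᶠ z in 𝓝 x, g z ≠ 0 → z ∈ V := by
      filter_upwards [hge, hN.mem_nhds hxN] with z h1 h2 h3
      by_contra hzV
      exact h3 (h1 (hNk ⟨hzV, h2⟩))
    obtain ⟨P, hP, hPe⟩ := extendM_off (E := Cm n) (h := w) (Den := g) (x := x) hg' hgne
      (by filter_upwards [hgV] with z h1 h2 using hwV z (h1 h2))
      (by
        filter_upwards [eventually_eventually_nhds.2 hgV] with y h1 h2
        obtain ⟨C, hC⟩ := hb y
        refine subset_closure ⟨h2, C, ?_⟩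
        filter_upwards [h1, eventually_eventually_nhds.2 hC] with z h3 h4 h5
        exact hwb C z (h3 h5) h4)
    refine hx ⟨P, hP, ?_⟩
    filter_upwards [hP.eventually, eventually_eventually_nhds.2 hPe, ne_freq hg' hgne]
      with z h1 h2 h3 hzS
    refine eq_of_freq (hu z hzS).continuousAt h1.continuousAt ?_
    refine (h3.and_eventually (h2.and (hSo.mem_nhds hzS))).mono ?_
    rintro t ⟨ht1, ht2, ht3⟩
    rw [← hwu t ht3]
    exact ht2 ht1
  exact ⟨w, fun x => hwV x (by rw [hVu]; trivial), hwu⟩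

/-- **V2** -/
theorem ext : ExtStmt := by
  intro n X _ _ _ _ S u hS hu hb
  exact extend hS hu hb

/-- **V3** -/
theorem compl : ComplStmt := by
  classical
  intro p Y _ _ _ _ _ S hS
  have hdense : Dense Sᶜ := dense_compl_small hS
  refine ⟨hdense, ?_⟩
  have hO : IsOpen Sᶜ := hS.1.isOpen_compl
  rw [isPreconnected_iff_subset_of_disjoint]
  intro u v hu hv huv hempty
  have hdisj : ∀ y, y ∉ S → y ∈ v → y ∉ u := by
    intro y h1 h2 h3
    have : y ∈ Sᶜ ∩ (u ∩ v) := ⟨h1, h3, h2⟩
    rw [hempty] at this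
    exact this
  set f : Y → ℂ := fun y => if y ∈ u then 1 else 0 with hf
  obtain ⟨w, hw, hwf⟩ := ext p Y S f hS (by
    intro x hx
    rcases huv hx with h1 | h1
    · refine (contMDiffAt_const (c := (1 : ℂ))).congr_of_eventuallyEq ?_
      filter_upwards [hu.mem_nhds h1] with y hy
      simp only [hf]
      rw [if_pos hy]
    · refine (contMDiffAt_const (c := (0 : ℂ))).congr_of_eventuallyEq ?_
      filter_upwards [hv.mem_nhds h1, hO.mem_nhds hx] with y hy hy2
      simp only [hf]
      rw [if_neg (hdisj y hy2 hy)]) (by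
    intro x
    refine ⟨1, Eventually.of_forall fun z _ => ?_⟩
    simp only [hf]
    split_ifs <;> simp)
  have hwc : Continuous w := continuous_iff_continuousAt.2 fun x => ContMDiffAt.continuousAt (hw x)
  have h01 : ∀ y, w y = 1 ∨ w y = 0 := by
    have hcl : IsClosed {y | w y = 1 ∨ w y = 0} :=
      (isClosed_singleton.preimage hwc).union (isClosed_singleton.preimage hwc)
    intro y
    have h1 : closure Sᶜ ⊆ {y | w y = 1 ∨ w y = 0} := hcl.closure_subset_iff.2 fun z hz => by
      show w z = 1 ∨ w z = 0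
      rw [hwf z hz]
      simp only [hf]
      split_ifs <;> simp
    exact h1 (hdense y)
  have hclopen : IsClopen {y | w y = 1} := by
    refine ⟨isClosed_singleton.preimage hwc, ?_⟩
    have h1 : {y | w y = 1} = {y | w y = 0}ᶜ := by
      ext y
      constructor
      · intro h h'
        have h3 : w y = 1 := h
        have h4 : w y = 0 := h'
        rw [h3] at h4
        exact one_ne_zero h4
      · intro h
        exact (h01 y).resolve_right h
    rw [h1]
    exact (isClosed_singleton.preimage hwc).isOpen_compl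
  rcases isClopen_iff.1 hclopen with h4 | h4
  · right
    intro y hy
    rcases huv hy with h | h
    · exfalso
      have h5 : y ∈ {y | w y = 1} := by
        show w y = 1
        rw [hwf y hy]
        simp only [hf]
        rw [if_pos h]
      rw [h4] at h5
      exact h5
    · exact h
  · left
    intro y hy
    by_contra h
    have h5 : y ∈ {y | w y = 1} := by rw [h4]; trivial
    have h6 : w y = 1 := h5
    rw [hwf y hy] at h6
    simp only [hf] at h6
    rw [if_neg h] at h6
    exact zero_ne_one h6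

end Vale.Agent.P281.H383.Gen
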