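import Vale.Agent.P281.H150.Gen.Img

/-! P281, project T-V, neat models, block V12 (helper383): Sard's theorem for analytic sets, in the
form: outside a countable union of thin closed sets, the values of `F` on the analytic set `A` are
interior points of `F(A)`. -/

open Set Filter Metric Vale.Agent.P281 Vale.Agent.P281.J Vale.Agent.P281.H713
open Vale.Agent.P281.H64.Thin (IsThinSet)
open Vale.Agent.P281.H64 (Cm)
open Vale.Agent.P281.H150.Gen
open scoped Topology ContDiff Manifold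

noncomputable section

namespace Vale.Agent.P281.H383.Gen

/-- The values of `F` at the points of `A ∩ W` through which there is a holomorphic map to `A ∩ W` on
which `F` is submersive. -/
def GoodVal {V : Type} [NormedAddCommGroup V] [NormedSpace ℂ V] {q : ℕ} (W A : Set V)
    (F : V → Cm q) : Set (Cm q) :=
  {y | ∃ (V' : Type) (_ : NormedAddCommGroup V') (_ : NormedSpace ℂ V')
    (_ : FiniteDimensional ℂ V') (W' : Set V') (φ : V' → V), IsOpen W' ∧
    (∀ x ∈ W', AnalyticAt ℂ φ x ∧ φ x ∈ A ∩ W) ∧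
    ∃ x ∈ W', Function.Surjective (fderiv ℂ (fun v => F (φ v)) x) ∧ F (φ x) = y}

theorem GoodVal.comp {V V₁ : Type} [NormedAddCommGroup V] [NormedSpace ℂ V]
    [NormedAddCommGroup V₁] [NormedSpace ℂ V₁] {q : ℕ} {W A : Set V} {F : V → Cm q} {W₁ : Set V₁}
    {ψ : V₁ → V} (hψ : ∀ k ∈ W₁, AnalyticAt ℂ ψ k ∧ ψ k ∈ W) :
    GoodVal W₁ (ψ ⁻¹' A) (fun v => F (ψ v)) ⊆ GoodVal W A F := by
  rintro y ⟨V', i1, i2, i3, W', φ, hW', hφ, x, hx, hs, hy⟩
  exact ⟨V', i1, i2, i3, W', fun v => ψ (φ v), hW', fun y hy =>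
    ⟨AnalyticAt.fun_comp (g := ψ) (f := φ) (hψ _ (hφ y hy).2.2).1 (hφ y hy).1,
      (hφ y hy).2.1, (hψ _ (hφ y hy).2.2).2⟩, x, hx, hs, hy⟩

/-- a good value is an interior point of the image -/
theorem GoodVal.mem_interior {V : Type} [NormedAddCommGroup V] [NormedSpace ℂ V] {q : ℕ}
    {W A : Set V} {F : V → Cm q} (hF : ∀ z ∈ W, AnalyticAt ℂ F z) {T : Set (Cm q)}
    (hT : ∀ z ∈ A ∩ W, F z ∈ T) : GoodVal W A F ⊆ interior T := by
  rintro y ⟨V', i1, i2, i3, W', φ, hW', hφ, x, hx, hs, rfl⟩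
  have : CompleteSpace V' := FiniteDimensional.complete ℂ V'
  have h1 : AnalyticAt ℂ (fun v => F (φ v)) x :=
    AnalyticAt.fun_comp (g := F) (f := φ) (hF _ (hφ x hx).2.2) (hφ x hx).1
  have h2 : map (fun v => F (φ v)) (𝓝 x) = 𝓝 (F (φ x)) :=
    h1.hasStrictFDerivAt.map_nhds_eq_of_surj (LinearMap.range_eq_top.2 hs)
  rw [mem_interior_iff_mem_nhds, ← h2, mem_map]
  filter_upwards [hW'.mem_nhds hx] with v hv
  exact hT _ (hφ v hv).2

theorem core' (q : ℕ) : ∀ (m : ℕ) (V : Type) [NormedAddCommGroup V] [NormedSpace ℂ V]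
    [FiniteDimensional ℂ V], Module.finrank ℂ V = m → ∀ (W A : Set V) (F : V → Cm q), IsOpen W →
    (∀ z ∈ W, AnalyticAt ℂ F z) → AnIn W A →
    SThin (Cm q) (F '' {x | x ∈ A ∩ W ∧ F x ∉ GoodVal W A F}) := by
  intro m
  induction m using Nat.strong_induction_on with
  | _ m ihm =>
  intro V _ _ _ hm W A F hW hF hA
  have : CompleteSpace V := FiniteDimensional.complete ℂ V
  have : ProperSpace V := FiniteDimensional.proper ℂ V
  have : SecondCountableTopology V := secondCountable_of_proper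
  refine SThin.image_of_local fun v hv => ?_
  obtain ⟨⟨hvA, hvW⟩, hvG⟩ := hv
  obtain ⟨U, ι, h, hU, hvU, hh, hAU⟩ := hA v hvW
  by_cases hcase : ∃ i, ¬ ∀ᶠ z in 𝓝 v, h i z = 0
  · -- Case 1: `A` is locally contained in a hypersurface
    obtain ⟨i, hi⟩ := hcase
    obtain ⟨e, he⟩ := exists_order (hh i v hvU) hi
    obtain ⟨N, hN1, hNo, hvN⟩ := _root_.eventually_nhds_iff.1
      (he.and ((hU.eventually_mem hvU).and (hW.eventually_mem hvW)))
    refine ⟨N, hNo.mem_nhds hvN, ?_⟩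
    set S : Set V := {x | x ∈ A ∩ W ∧ F x ∉ GoodVal W A F} with hS
    set T : ℕ → Set V := fun k => {z | z ∈ S ∩ N ∧ D (h i) e k z = 0 ∧
      fderiv ℂ (D (h i) e k) z ≠ 0} with hT
    have hsub : F '' (S ∩ N) ⊆ ⋃ k, F '' (T k) := by
      rintro _ ⟨z, hz, rfl⟩
      have hz0 : h i z = 0 := (hAU z (hN1 z hz.2).2.1).1 hz.1.1.1 i
      obtain ⟨k, hk⟩ := (hN1 z hz.2).1 hz0
      exact mem_iUnion.2 ⟨k, z, ⟨hz, hk⟩, rfl⟩
    refine (SThin.iUnion (fun k => ?_)).mono hsub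
    refine SThin.image_of_local fun z hz => ?_
    have hzA : AnalyticAt ℂ (D (h i) e k) z := D_analytic (hh i z (hN1 z hz.1.2).2.1) k
    obtain ⟨W₁, ψ, hW₁, hψ, hcov⟩ := exists_param hzA hz.2.1 hz.2.2 (hW.mem_nhds hz.1.1.1.2)
    obtain ⟨N₁, hN₁, hN₁o, hzN₁⟩ := _root_.eventually_nhds_iff.1 hcov
    refine ⟨N₁, hN₁o.mem_nhds hzN₁, ?_⟩
    have hfin : Module.finrank ℂ (LinearMap.ker (fderiv ℂ (D (h i) e k) z : V →ₗ[ℂ] ℂ)) < m := by
      have h1 := LinearMap.finrank_range_add_finrank_ker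
        (fderiv ℂ (D (h i) e k) z : V →ₗ[ℂ] ℂ)
      have h2 : 0 < Module.finrank ℂ
          (LinearMap.range (fderiv ℂ (D (h i) e k) z : V →ₗ[ℂ] ℂ)) := by
        rw [Module.finrank_pos_iff_exists_ne_zero]
        obtain ⟨v', hv'⟩ : ∃ v', fderiv ℂ (D (h i) e k) z v' ≠ 0 := by
          by_contra hcon
          push Not at hcon
          exact hz.2.2 (ContinuousLinearMap.ext hcon)
        refine ⟨⟨_, LinearMap.mem_range_self _ v'⟩, ?_⟩
        intro hcon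
        exact hv' (congrArg Subtype.val hcon)
      omega
    have h3 := ihm _ hfin _ rfl W₁ (ψ ⁻¹' A) (fun x => F (ψ x)) hW₁
      (fun x hx => AnalyticAt.fun_comp (g := F) (f := ψ) (hF _ (hψ x hx).2) (hψ x hx).1)
      (hA.comp hW₁ hψ)
    refine h3.mono ?_
    rintro _ ⟨x, ⟨hxT, hxN⟩, rfl⟩
    obtain ⟨x₁, hx₁, rfl⟩ := hN₁ x hxN hxT.2.1
    exact ⟨x₁, ⟨⟨hxT.1.1.1.1, hx₁⟩, fun hcon => hxT.1.1.2 (GoodVal.comp hψ hcon)⟩, rfl⟩
  · -- Case 2: `A` is a neighbourhood of `v`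
    push Not at hcase
    obtain ⟨ρ, hρ, hB⟩ := Metric.mem_nhds_iff.1 (inter_mem (hU.mem_nhds hvU) (hW.mem_nhds hvW))
    have hBA : ∀ z ∈ ball v ρ, z ∈ A ∩ W := by
      intro z hz
      refine ⟨(hAU z (hB hz).1).2 fun i => ?_, (hB hz).2⟩
      have h1 : AnalyticOnNhd ℂ (h i) (ball v ρ) := fun w hw => hh i w (hB hw).1
      exact h1.eqOn_zero_of_preconnected_of_eventuallyEq_zero (convex_ball v ρ).isPreconnected
        (mem_ball_self hρ) (hcase i) hz
    refine ⟨ball v ρ, ball_mem_nhds v hρ, ?_⟩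
    have hFa : ∀ z ∈ ball v ρ, AnalyticAt ℂ F z := fun z hz => hF z (hB hz).2
    have h1 : SThin (Cm q) (F '' ({z | ¬ Function.Surjective (fderiv ℂ F z)} ∩ ball v ρ)) := by
      refine core q _ V rfl (ball v ρ) _ F isOpen_ball hFa (anIn_crit isOpen_ball hFa) ?_
      intro V' _ _ _ W' φ hW' hφ x hx hsurj
      have h2 : fderiv ℂ (fun v => F (φ v)) x = (fderiv ℂ F (φ x)).comp (fderiv ℂ φ x) :=
        (((hFa _ (hφ x hx).2.2).differentiableAt.hasFDerivAt).comp x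
          (hφ x hx).1.differentiableAt.hasFDerivAt).fderiv
      rw [h2] at hsurj
      exact (hφ x hx).2.1 (Function.Surjective.of_comp hsurj)
    refine h1.mono ?_
    rintro _ ⟨x, ⟨⟨hxA, hxG⟩, hx⟩, rfl⟩
    refine ⟨x, ⟨fun hs => hxG ?_, hx⟩, rfl⟩
    exact ⟨V, inferInstance, inferInstance, inferInstance, ball v ρ, fun x => x, isOpen_ball,
      fun z hz => ⟨analyticAt_id, hBA z hz⟩, x, hx, hs, rfl⟩

end Vale.Agent.P281.H383.Gen
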