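import Vale.Agent.P281.H383.Gen.Dich
import Vale.Agent.P281.H399.Gen.Base
import Vale.Agent.P281.H64.Gen.SpecN

/-!
# P281, project T-V, neat models (helper383): block V12, the orbifold base of a fibration whose
exceptional divisors have coefficient one
-/

open Set Filter Metric Vale.Agent.P281 Vale.Agent.P281.H713 Vale.Agent.P281.H64
open Vale.Agent.P281.H64.Gen
open Vale.Agent.P281.H511.Gen (sm)
open Vale.Agent.P281.H399.Gen (gen_point mulSet mm base_of base_not isPrime_of one_mem)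
open Vale.Agent.P281.H64.Thin (IsThinSet)
open scoped Topology ContDiff Manifold ENNReal

noncomputable section

namespace Vale.Agent.P281.H383.Gen

set_option linter.unusedSectionVars false

section
variable {n p : ℕ} {X Y : Type} [TopologicalSpace X] [ChartedSpace (Cm n) X]
  [IsManifold 𝓘(ℂ, Cm n) ω X] [TopologicalSpace Y] [ChartedSpace (Cm p) Y]
  [IsManifold 𝓘(ℂ, Cm p) ω Y] {f : X → Y}

/-- `f⁻¹(G)` is not everything -/
theorem exists_notMem (hsurj : Function.Surjective f) {G : Set Y} (hG : J.IsPrime (Cm p) G) :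
    ∃ x, f x ∉ G := by
  obtain ⟨y, hy⟩ := hG.2.2.nonempty
  obtain ⟨z, -, hz⟩ := IsLocalEq.exists_notMem (E := Cm p) (D := G) hG.2.1 isOpen_univ
    ⟨y, mem_univ _⟩
  obtain ⟨x', rfl⟩ := hsurj z
  exact ⟨x', hz⟩

/-- **There is a prime divisor which dominates `G`.** -/
theorem exists_prime_dom [T2Space X] [CompactSpace X] [PreconnectedSpace X] [T2Space Y]
    (hI : IrrStmt) (hF : FinStmt) (hf : ContMDiff 𝓘(ℂ, Cm n) 𝓘(ℂ, Cm p) ω f)
    (hsurj : Function.Surjective f) {G : Set Y} (hG : J.IsPrime (Cm p) G) :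
    ∃ P, J.IsPrime (Cm n) P ∧ closure (f '' P) = G := by
  obtain ⟨q, rfl⟩ : ∃ q, p = q + 1 := by
    rcases p with _ | q
    · exfalso
      obtain ⟨y, -, g, -, hdg⟩ := hG.2.2.nonempty
      exact hdg (ContinuousLinearMap.ext fun v => by
        rw [Subsingleton.elim v 0, map_zero, map_zero])
    · exact ⟨q, rfl⟩
  have hex := exists_notMem hsurj hG
  have hyp := H511.Gen.isHyp_preimage hf hG.2.1
    (H511.Gen.not_eventually_preimage hf hG.2.1 hex)
  have hAn := H511.Gen.isAnalyticSet_preimage hf (H511.Gen.isAnalyticSet_prime hG)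
  set 𝒜 : Set (Set X) := {P | J.IsPrime (Cm n) P ∧ P ⊆ f ⁻¹' G} with h𝒜
  have hfin : 𝒜.Finite := by
    refine hF n X _ (H511.Gen.isThinSet_of_analytic hAn ?_)
    obtain ⟨x, hx⟩ := hex
    intro h
    exact hx (show x ∈ f ⁻¹' G by rw [h]; trivial)
  have hcl : IsClosed (⋃₀ 𝒜) := by
    rw [sUnion_eq_biUnion]
    exact hfin.isClosed_biUnion fun P hP => hP.1.1
  have hcov : f ⁻¹' G ⊆ ⋃₀ 𝒜 := by
    intro x hx
    refine hcl.closure_subset (mem_closure_iff_nhds.2 fun N hN => ?_)
    obtain ⟨g, hg, hg0, hgD⟩ := hyp x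
    obtain ⟨z, hzN, e, he, he0, hde, heD⟩ := H511.Gen.exists_smooth hg hg0 hgD hx hN
    obtain ⟨P, hP, hPD, hPe⟩ := hI n X (f ⁻¹' G) (hG.1.preimage hf.continuous) hyp z e he he0 hde
      heD
    exact ⟨z, hzN, P, ⟨hP, hPD⟩, (H511.Gen.isLocalEq_mem_iff hPe).self_of_nhds.2 he0⟩
  obtain ⟨P, hP, hPG⟩ := exists_dominating hfin hf
    (fun P hP => H511.Gen.isAnalyticSet_prime hP.1) hG
    (fun P hP => image_subset_iff.2 hP.2) (fun y hy => by
      obtain ⟨x, rfl⟩ := hsurj y
      obtain ⟨P, hP, hxP⟩ := hcov hy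
      exact ⟨P, hP, mem_image_of_mem f hxP⟩)
  exact ⟨P, hP.1, by rw [hPG, hG.1.closure_eq]⟩

omit [IsManifold 𝓘(ℂ, Cm n) ω X] in
/-- the image of a prime divisor of `f⁻¹(G)` is `G`, or its coefficient is one -/
theorem dominate1 {Δ : Set X → ℝ} (hne : ExcOne (Cm n) (Cm p) f Δ) {P : Set X} {G : Set Y}
    (hP : J.IsPrime (Cm n) P) (hG : J.IsPrime (Cm p) G) (hPG : P ⊆ f ⁻¹' G) :
    closure (f '' P) = G ∨ Δ P = 1 := by
  have h1 : closure (f '' P) ⊆ G := closure_minimal (image_subset_iff.2 hPG) hG.1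
  rcases hne.1 P hP with h | h | h
  · exfalso
    rw [h] at h1
    obtain ⟨y, hy⟩ := hG.2.2.nonempty
    obtain ⟨z, -, hz⟩ := IsLocalEq.exists_notMem (E := Cm p) (D := G) hG.2.1 isOpen_univ
      ⟨y, mem_univ y⟩
    exact hz (h1 (mem_univ z))
  · exact Or.inl (H511.Gen.prime_eq_of_subset h hG h1)
  · exact Or.inr h

end

/-- **V12** -/
theorem base1 (hI : IrrStmt) (hF : FinStmt) (hC : CritStmt) (hK : ComplStmt) : Base1Stmt := by
  classical
  intro n p X Y _ _ _ _ _ _ _ _ _ _ f Δ hf hconn hΔ hne Γ hΓ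
  subst hΓ
  obtain ⟨hfin, hpr, hrat, -⟩ := hΔ
  have hsurj : Function.Surjective f := fun y => (hconn y).nonempty
  have hΔ0 : ∀ D, 0 ≤ Δ D := fun D => by
    obtain ⟨q, hq, h0, -⟩ := hrat D
    rw [hq]
    exact_mod_cast h0
  have hΔ1 : ∀ D, Δ D ≤ 1 := fun D => by
    obtain ⟨q, hq, -, h1⟩ := hrat D
    rw [hq]
    exact_mod_cast h1
  -- the critical set is thin
  have hY : ConnectedSpace Y := hsurj.connectedSpace hf.continuous
  have hcrit : {D : Set X | J.IsPrime (Cm n) D ∧ D ⊆ H364.critSet (n := n) (p := p) f}.Finite := by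
    refine hF n X _ (H511.Gen.isThinSet_of_analytic (H364.critSet_analytic hf) ?_)
    obtain ⟨S, hS, hSf⟩ := hC n p X Y f hf hconn
    obtain ⟨y, hy⟩ := (hK p Y S hS).1.nonempty
    obtain ⟨x, rfl⟩ := hsurj y
    intro h
    have hx : x ∈ H364.critSet (n := n) (p := p) f := by rw [h]; exact mem_univ x
    exact hx ((hSf S Subset.rfl hS.1).submersive x hy)
  have hcritc : IsClosed (H364.critSet (n := n) (p := p) f) :=
    H511.Gen.isAnalyticSet_isClosed (H364.critSet_analytic hf)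
  have hΓfin : {G | TZ.S.base (Cm n) (Cm p) f Δ G ≠ 0}.Finite := by
    refine ((hfin.union hcrit).image fun D => closure (f '' D)).subset ?_
    intro G hG
    have hGp := isPrime_of hG
    obtain ⟨P, hP, hPG⟩ := exists_prime_dom hI hF hf hsurj hGp
    refine ⟨P, ?_, hPG⟩
    by_cases hΔP : Δ P = 0
    swap
    · exact Or.inl hΔP
    right
    refine ⟨hP, ?_⟩
    by_contra hcon
    obtain ⟨x₁, hx₁, hx₁c⟩ := not_subset.1 hcon
    obtain ⟨y, hyN, hyD, hyG, -⟩ := gen_point hf hP hGp hPG finite_empty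
      (fun G' h => absurd h (notMem_empty G')) hx₁ (hcritc.isOpen_compl.mem_nhds hx₁c)
    have h1 : 1 ∈ mulSet n p f P G := one_mem hf (fun z hz => by
      rw [← hPG]
      exact subset_closure (mem_image_of_mem f hz)) hyD hyG (not_not.1 hyN)
    apply hG
    rw [base_of hGp]
    apply H964.coef_zero
    refine le_trans (iInf₂_le P ⟨hP, hPG⟩) ?_
    rw [hΔP, ENNReal.ofReal_zero, tsub_zero, inv_one, mul_one]
    exact_mod_cast Nat.sInf_le h1
  refine ⟨hΓfin, fun G hG => isPrime_of hG, ?_, ?_, ?_⟩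
  · -- rationality
    intro G
    by_cases hG : J.IsPrime (Cm p) G
    · rw [base_of hG]
      suffices h : ∃ r : ℚ, (1 - (mm n p f Δ G)⁻¹).toReal = r by
        obtain ⟨r, hr⟩ := h
        refine ⟨r, hr, ?_, ?_⟩
        · have := H964.coef_nonneg (mm n p f Δ G)
          rw [hr] at this
          exact_mod_cast this
        · have := H964.coef_le_one (mm n p f Δ G)
          rw [hr] at this
          exact_mod_cast this
      have hr : (range Δ).Finite := by
        refine ((hfin.image Δ).union (finite_singleton 0)).subset ?_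
        rintro _ ⟨D, rfl⟩
        by_cases h : Δ D = 0
        · right; exact h
        · left; exact ⟨D, h, rfl⟩
      rcases H964.iInf_attained (P := fun D => J.IsPrime (Cm n) D ∧ closure (f '' D) = G)
        (k := fun D => sInf (mulSet n p f D G)) (δ := Δ) hr with h | ⟨D, hD, h⟩
      · refine ⟨1, ?_⟩
        have e : mm n p f Δ G = ⊤ := by
          rw [mm]
          exact iInf₂_eq_top.mpr fun D hD => absurd hD (h D)
        rw [e]
        simp
      · obtain ⟨q, hq, h0, h1⟩ := hrat D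
        have e : mm n p f Δ G = ((sInf (mulSet n p f D G) : ℕ) : ℝ≥0∞) *
          (1 - ENNReal.ofReal (Δ D))⁻¹ := h
        rw [e]
        exact H964.rat_coef _ hq h0 h1
    · exact ⟨0, by rw [base_not hG, Rat.cast_zero], le_rfl, zero_le_one⟩
  · -- normal crossings
    intro z G hG hz
    exact subset_closure ⟨⟨G, hG, hz⟩, Eventually.of_forall hne.2⟩
  · -- the morphism
    intro z G g e w k hG hg he hez hde hw hwz hk hgf
    have hGp := isPrime_of hG
    have h1 : g (f z) = 0 := by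
      rw [hgf.self_of_nhds, hez, zero_pow hk.ne', zero_mul]
    have hgm := H511.Gen.isLocalEq_mem_iff hg
    have h2 : f z ∈ G := hgm.self_of_nhds.2 h1
    have h4 : ∀ᶠ x in 𝓝 z, x ∈ f ⁻¹' G ↔ e x = 0 := by
      have h5 := hf.continuous.continuousAt.eventually hgm
      have h6 : ∀ᶠ x in 𝓝 z, w x ≠ 0 := ContinuousAt.eventually_ne
        (ContMDiffAt.continuousAt hw) hwz
      filter_upwards [h5, h6, hgf] with x h7 h8 h9
      rw [mem_preimage, h7, h9, mul_eq_zero, or_iff_left h8, pow_eq_zero_iff hk.ne']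
    have hex := exists_notMem hsurj hGp
    obtain ⟨D, hD, hDf, hDe⟩ := hI n X (f ⁻¹' G) (hGp.1.preimage hf.continuous)
      (H511.Gen.isHyp_preimage hf hGp.2.1 (H511.Gen.not_eventually_preimage hf hGp.2.1 hex))
      z e he hez hde h4
    have hzD : z ∈ D := (H511.Gen.isLocalEq_mem_iff hDe).self_of_nhds.2 hez
    have h9 : Δ D ≤ ∑ᶠ (D : Set X) (_ : z ∈ D), Δ D := by
      have e1 : (∑ᶠ (_ : z ∈ D), Δ D) = Δ D := finsum_eq_if.trans (if_pos hzD)
      have h10 := single_le_finsum (f := fun D : Set X => ∑ᶠ (_ : z ∈ D), Δ D) D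
        (hfin.subset fun D' hD' => by
          intro h
          apply hD'
          change (∑ᶠ (_ : z ∈ D'), Δ D') = 0
          rw [h]
          exact finsum_zero) (fun D' => by
          change 0 ≤ ∑ᶠ (_ : z ∈ D'), Δ D'
          rw [finsum_eq_if]
          split_ifs
          · exact hΔ0 D'
          · exact le_rfl)
      exact e1.symm.le.trans h10
    rcases dominate1 hne hD hGp hDf with h5 | h5
    · have h6 : sInf (mulSet n p f D G) ≤ k :=
        Nat.sInf_le ⟨z, hzD, e, g, w, hDe, hg, hw, hwz, hgf⟩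
      have h7 : mm n p f Δ G ≤ ((sInf (mulSet n p f D G) : ℕ) : ℝ≥0∞) *
          (1 - ENNReal.ofReal (Δ D))⁻¹ :=
        iInf₂_le D ⟨hD, h5⟩
      rw [base_of hGp] at hG ⊢
      have h8 := H964.coef_le hk h6 (hΔ0 D) (hΔ1 D) h7 hG
      linarith
    · have h6 : TZ.S.base (Cm n) (Cm p) f Δ G ≤ 1 := by
        rw [base_of hGp]
        exact H964.coef_le_one _
      have h7 : (0 : ℝ) ≤ k * (1 - TZ.S.base (Cm n) (Cm p) f Δ G) :=
        mul_nonneg (Nat.cast_nonneg k) (by linarith)
      rw [h5] at h9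
      linarith

end Vale.Agent.P281.H383.Gen
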