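import Vale.Agent.P281.H383.Gen.Good
import Vale.Agent.P281.H383.Gen.Ext
import Vale.Agent.P281.H511.Gen.Prime

/-! P281, project T-V, neat models, block V12 (helper383): the image of an analytic set `A` of a
compact manifold which is contained in a prime divisor `G` either is `G` or has empty interior in
`G`. -/

open Set Filter Metric Vale.Agent.P281 Vale.Agent.P281.H713
open Vale.Agent.P281.H64.Thin (IsThinSet)
open Vale.Agent.P281.H64 (Cm)
open Vale.Agent.P281.H64.Gen (IsAnalyticSet IsSmallSet)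
open Vale.Agent.P281.H150.Gen (AnIn SThin holAt_symm holAt_chart)
open Vale.Agent.P281.H511.Gen (sm exists_coord isLocalEq_mem_iff isLocalEq_holAt sm_eventually
  subset_closure_sm isAnalyticSet_isClosed)
open scoped Topology ContDiff Manifold

noncomputable section

namespace Vale.Agent.P281.H383.Gen

/-- The hyperplane `v σ = 0` of `ℂ^(q+1)`. -/
def inc {q : ℕ} (σ : Fin (q + 1)) (w : Cm q) : Cm (q + 1) :=
  Fin.insertNth (α := fun _ => ℂ) σ (0 : ℂ) w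

/-- The projection to the hyperplane `v σ = 0`. -/
def prj {q : ℕ} (σ : Fin (q + 1)) (v : Cm (q + 1)) : Cm q := fun i => v (σ.succAbove i)

theorem inc_same {q : ℕ} (σ : Fin (q + 1)) (w : Cm q) : inc σ w σ = 0 := by
  unfold inc
  exact Fin.insertNth_apply_same (α := fun _ => ℂ) σ (0 : ℂ) w

theorem inc_succAbove {q : ℕ} (σ : Fin (q + 1)) (w : Cm q) (i : Fin q) :
    inc σ w (σ.succAbove i) = w i := by
  unfold inc
  exact Fin.insertNth_apply_succAbove (α := fun _ => ℂ) σ (0 : ℂ) w i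

theorem prj_inc {q : ℕ} (σ : Fin (q + 1)) (w : Cm q) : prj σ (inc σ w) = w :=
  funext fun i => inc_succAbove σ w i

theorem ext_fin {q : ℕ} (σ : Fin (q + 1)) {P : Fin (q + 1) → Prop} (h1 : P σ)
    (h2 : ∀ i, P (σ.succAbove i)) (j : Fin (q + 1)) : P j := by
  rcases Fin.eq_self_or_eq_succAbove σ j with h | ⟨i, h⟩
  · rw [h]; exact h1
  · rw [h]; exact h2 i

theorem inc_prj {q : ℕ} (σ : Fin (q + 1)) {v : Cm (q + 1)} (hv : v σ = 0) :
    inc σ (prj σ v) = v := by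
  funext j
  refine ext_fin σ (P := fun j => inc σ (prj σ v) j = v j) ?_ (fun i => ?_) j
  · rw [inc_same, hv]
  · rw [inc_succAbove]; rfl

theorem continuous_inc {q : ℕ} (σ : Fin (q + 1)) : Continuous (inc σ) := by
  refine continuous_pi fun j => ?_
  refine ext_fin σ (P := fun j => Continuous fun w => inc σ w j) ?_ (fun i => ?_) j
  · simp only [inc_same]
    exact continuous_const
  · simp only [inc_succAbove]
    exact continuous_apply i

theorem continuous_prj {q : ℕ} (σ : Fin (q + 1)) : Continuous (prj σ) :=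
  continuous_pi fun i => continuous_apply _

theorem dist_inc {q : ℕ} (σ : Fin (q + 1)) {v : Cm (q + 1)} (hv : v σ = 0) {w : Cm q} {r : ℝ}
    (hr : 0 < r) (hw : dist w (prj σ v) < r) : dist (inc σ w) v < r := by
  rw [dist_pi_lt_iff hr]
  intro j
  refine ext_fin σ (P := fun j => dist (inc σ w j) (v j) < r) ?_ (fun i => ?_) j
  · rw [inc_same, hv, dist_self]; exact hr
  · rw [inc_succAbove]
    exact lt_of_le_of_lt (dist_le_pi_dist w (prj σ v) i) hw

theorem dist_prj {q : ℕ} (σ : Fin (q + 1)) {v v' : Cm (q + 1)} {r : ℝ}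
    (hr : 0 < r) (hw : dist v v' < r) : dist (prj σ v) (prj σ v') < r := by
  rw [dist_pi_lt_iff hr]
  intro i
  exact lt_of_le_of_lt (dist_le_pi_dist v v' (σ.succAbove i)) hw

/-- `compl` in a ball -/
theorem compl_ball {q : ℕ} {c : Cm q} {r : ℝ} (hr : 0 < r) {S : Set (Cm q)}
    (hSc : ∀ w ∈ ball c r, w ∉ S → ∀ᶠ z in 𝓝 w, z ∉ S) (hS : SThin (Cm q) S)
    {U₁ U₂ : Set (Cm q)} (h1 : IsOpen U₁) (h2 : IsOpen U₂)
    (hcov : ∀ w ∈ ball c r, w ∉ S → w ∈ U₁ ∨ w ∈ U₂)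
    (hdis : ∀ w ∈ ball c r, w ∉ S → w ∈ U₁ → w ∉ U₂) :
    (∀ w ∈ ball c r, w ∉ S → w ∈ U₁) ∨ (∀ w ∈ ball c r, w ∉ S → w ∈ U₂) := by
  let B : TopologicalSpace.Opens (Cm q) := ⟨ball c r, isOpen_ball⟩
  have hpre : PreconnectedSpace B :=
    isPreconnected_iff_preconnectedSpace.1 (convex_ball c r).isPreconnected
  have hSB : IsSmallSet (Cm q) ((Subtype.val : B → Cm q) ⁻¹' S) := by
    refine ⟨?_, ?_⟩
    · rw [← isOpen_compl_iff, isOpen_iff_mem_nhds]
      intro w hw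
      exact continuous_subtype_val.continuousAt.eventually (hSc w.1 w.2 hw)
    · obtain ⟨H, hH, hsub⟩ := hS
      refine ⟨fun k => (Subtype.val : B → Cm q) ⁻¹' (H k), fun k => ⟨(hH k).1.preimage
        continuous_subtype_val, fun w => ?_⟩, fun w hw => ?_⟩
      · obtain ⟨g, hg, hne, hev⟩ := (hH k).2 w.1
        refine ⟨fun z => g z.1, ?_, ?_, ?_⟩
        · have h3 : ContMDiff 𝓘(ℂ, Cm q) 𝓘(ℂ, Cm q) ω (Subtype.val : B → Cm q) :=
            contMDiff_subtype_val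
          exact ContMDiffAt.comp (I' := 𝓘(ℂ, Cm q)) w hg (h3 w)
        · intro hcon
          apply hne
          have h3 : map (Subtype.val : B → Cm q) (𝓝 w) = 𝓝 w.1 :=
            B.2.isOpenEmbedding_subtypeVal.map_nhds_eq w
          rw [← h3, eventually_map]
          exact hcon
        · exact continuous_subtype_val.continuousAt.eventually hev
      · obtain ⟨k, hk⟩ := mem_iUnion.1 (hsub hw)
        exact mem_iUnion.2 ⟨k, hk⟩
  have hc := (compl q B _ hSB).2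
  rw [isPreconnected_iff_subset_of_disjoint] at hc
  rcases hc ((Subtype.val : B → Cm q) ⁻¹' U₁) ((Subtype.val : B → Cm q) ⁻¹' U₂)
    (h1.preimage continuous_subtype_val) (h2.preimage continuous_subtype_val)
    (fun w hw => hcov w.1 w.2 hw) (by
      ext w
      simp only [mem_inter_iff, mem_empty_iff_false, iff_false]
      rintro ⟨h3, h4, h5⟩
      exact hdis w.1 w.2 h3 h4 h5) with h | h
  · left
    exact fun w hw hwS => h (show (⟨w, hw⟩ : B) ∈ _ from hwS)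
  · right
    exact fun w hw hwS => h (show (⟨w, hw⟩ : B) ∈ _ from hwS)

section

variable {n q : ℕ} {X Y : Type} [TopologicalSpace X] [T2Space X] [CompactSpace X]
  [ChartedSpace (Cm n) X] [IsManifold 𝓘(ℂ, Cm n) ω X] [TopologicalSpace Y] [T2Space Y] [ChartedSpace (Cm (q + 1)) Y]
  [IsManifold 𝓘(ℂ, Cm (q + 1)) ω Y] {f : X → Y}

/-- The local dichotomy. -/
theorem dich {A : Set X} (hf : ContMDiff 𝓘(ℂ, Cm n) 𝓘(ℂ, Cm (q + 1)) ω f)
    (hA : IsAnalyticSet (Cm n) A) {G : Set Y} (hAG : f '' A ⊆ G) {y₀ : Y}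
    (hy₀ : y₀ ∈ sm (q + 1) G) :
    ∃ V : Set Y, IsOpen V ∧ y₀ ∈ V ∧ (V ∩ G ⊆ f '' A ∨
      ∀ V' ⊆ V, IsOpen V' → (V' ∩ G).Nonempty → ∃ y ∈ V' ∩ G, y ∉ f '' A) := by
  have hAc : IsCompact (f '' A) :=
    ((isAnalyticSet_isClosed hA).isCompact).image hf.continuous
  obtain ⟨hy₀G, g, hg, hdg⟩ := hy₀
  have hgh := isLocalEq_holAt hg
  have hg0 : g y₀ = 0 := (isLocalEq_mem_iff hg).self_of_nhds.1 hy₀G
  obtain ⟨σ, Ψ, hy₀Ψ, hσ, hΨ⟩ := exists_coord hgh hdg
  obtain ⟨V₀, hV₀, hV₀o, hy₀V₀⟩ := eventually_nhds_iff.1 (isLocalEq_mem_iff hg)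
  set O : Set Y := Ψ.source ∩ V₀ with hO
  have hOo : IsOpen O := Ψ.open_source.inter hV₀o
  have hΨσ : ∀ y ∈ O, y ∈ G → Ψ y σ = 0 := fun y hy hyG =>
    (hσ y hy.1).trans ((hV₀ y hy.2).1 hyG)
  have hΨG : ∀ y ∈ O, Ψ y σ = 0 → y ∈ G := fun y hy h =>
    (hV₀ y hy.2).2 ((hσ y hy.1).symm.trans h)
  have h00 : Ψ y₀ σ = 0 := hΨσ y₀ ⟨hy₀Ψ, hy₀V₀⟩ hy₀G
  -- a ball
  have h1 : Ψ.target ∩ Ψ.symm ⁻¹' O ∈ 𝓝 (Ψ y₀) := by
    refine inter_mem (Ψ.open_target.mem_nhds (Ψ.map_source hy₀Ψ)) ?_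
    have h2 := Ψ.continuousAt_symm (Ψ.map_source hy₀Ψ)
    refine h2 ?_
    rw [Ψ.left_inv hy₀Ψ]
    exact hOo.mem_nhds ⟨hy₀Ψ, hy₀V₀⟩
  obtain ⟨r, hr, hb⟩ := Metric.nhds_basis_closedBall.mem_iff.1 h1
  set K : Set Y := Ψ.symm '' closedBall (Ψ y₀) r with hK
  have hKc : IsCompact K := (isCompact_closedBall _ _).image_of_continuousOn
    fun w hw => (Ψ.continuousAt_symm (hb hw).1).continuousWithinAt
  have hKO : K ⊆ O := by
    rintro _ ⟨w, hw, rfl⟩
    exact (hb hw).2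
  -- the image in the coordinates
  set T : Set (Cm q) := {w | inc σ w ∈ Ψ.target ∧ Ψ.symm (inc σ w) ∈ f '' A} with hT
  have hTmem : ∀ y ∈ O, y ∈ f '' A → prj σ (Ψ y) ∈ T := by
    intro y hy hyA
    have h2 : inc σ (prj σ (Ψ y)) = Ψ y := inc_prj σ (hΨσ y hy (hAG hyA))
    refine ⟨?_, ?_⟩
    · rw [h2]; exact Ψ.map_source hy.1
    · rw [h2, Ψ.left_inv hy.1]; exact hyA
  have hloc : ∀ x : X, ∃ N ∈ 𝓝 x, SThin (Cm q) ((fun x' => prj σ (Ψ (f x'))) ''
      {x' | x' ∈ A ∧ x' ∈ N ∧ f x' ∈ K ∧ prj σ (Ψ (f x')) ∉ interior T}) := by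
    intro x
    by_cases hx : f x ∈ O
    swap
    · refine ⟨(f ⁻¹' K)ᶜ, (hKc.isClosed.preimage hf.continuous).isOpen_compl.mem_nhds
        fun h => hx (hKO h), SThin.empty.mono ?_⟩
      rintro _ ⟨x', ⟨-, h2, h3, -⟩, -⟩
      exact h2 h3
    set φ := chartAt (Cm n) x with hφx
    set W : Set (Cm n) := φ.target ∩ φ.symm ⁻¹' (f ⁻¹' O) with hW
    have hWo : IsOpen W := ContinuousOn.isOpen_inter_preimage φ.continuousOn_symm φ.open_target
      (hOo.preimage hf.continuous)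
    set F : Cm n → Cm q := fun v => prj σ (Ψ (f (φ.symm v))) with hF
    have hFa : ∀ v ∈ W, AnalyticAt ℂ F v := by
      intro v hv
      have h2 : ContMDiffAt 𝓘(ℂ, Cm n) 𝓘(ℂ, Cm (q + 1)) ω (fun v => f (φ.symm v)) v :=
        ContMDiffAt.comp v (hf _) (holAt_symm hv.1)
      have h3 : ∀ i, AnalyticAt ℂ (fun v => F v i) v := by
        intro i
        have h4 : J.HolAt (Cm (q + 1)) (fun y => Ψ y (σ.succAbove i)) (f (φ.symm v)) := by
          rw [hΨ _ hv.2.1]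
          refine (((ContinuousLinearMap.proj (R := ℂ) (φ := fun _ : Fin (q + 1) => ℂ)
            (σ.succAbove i)).analyticAt _).congr ?_)
          filter_upwards [Ψ.open_target.mem_nhds (Ψ.map_source hv.2.1)] with w hw
          show w (σ.succAbove i) = Ψ (Ψ.symm w) (σ.succAbove i)
          rw [Ψ.right_inv hw]
        have h5 : ContMDiffAt 𝓘(ℂ, Cm n) 𝓘(ℂ, ℂ) ω (fun v => Ψ (f (φ.symm v)) (σ.succAbove i)) v :=
          ContMDiffAt.comp (I' := 𝓘(ℂ, Cm (q + 1))) (g := fun y => Ψ y (σ.succAbove i))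
            (f := fun v => f (φ.symm v)) v h4 h2
        exact (contMDiffAt_iff_contDiffAt.1 h5).analyticAt
      exact analyticAt_pi_iff.2 h3
    have hAn : AnIn W (φ.symm ⁻¹' A) := by
      intro v hv
      obtain ⟨U, ι, h, hU, hvU, hh, hAU⟩ := hA (φ.symm v)
      refine ⟨W ∩ φ.symm ⁻¹' U, ι, fun i w => h i (φ.symm w), ?_, ⟨hv, hvU⟩, ?_, ?_⟩
      · exact ContinuousOn.isOpen_inter_preimage
          (φ.continuousOn_symm.mono inter_subset_left) hWo hU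
      · intro i w hw
        have h1 : ContMDiffAt 𝓘(ℂ, Cm n) 𝓘(ℂ, ℂ) ω (fun w => h i (φ.symm w)) w :=
          ContMDiffAt.comp w (hh i _ hw.2) (holAt_symm hw.1.1)
        exact (contMDiffAt_iff_contDiffAt.1 h1).analyticAt
      · intro w hw
        exact hAU _ hw.2
    have hS := core' q _ (Cm n) rfl W (φ.symm ⁻¹' A) F hWo hFa hAn
    refine ⟨φ.source ∩ f ⁻¹' O, inter_mem (φ.open_source.mem_nhds (mem_chart_source _ x))
      (hf.continuous.continuousAt.preimage_mem_nhds (hOo.mem_nhds hx)), hS.mono ?_⟩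
    rintro _ ⟨x', ⟨h2, ⟨h3, h4⟩, h5, h6⟩, rfl⟩
    have h7 : φ.symm (φ x') = x' := φ.left_inv h3
    refine ⟨φ x', ⟨⟨?_, φ.map_source h3, ?_⟩, ?_⟩, ?_⟩
    · show φ.symm (φ x') ∈ A
      rw [h7]; exact h2
    · show f (φ.symm (φ x')) ∈ O
      rw [h7]; exact h4
    · intro hcon
      apply h6
      have h8 : F (φ x') = prj σ (Ψ (f x')) := by
        show prj σ (Ψ (f (φ.symm (φ x')))) = _
        rw [h7]
      rw [← h8]
      refine GoodVal.mem_interior hFa ?_ hcon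
      rintro z ⟨hzA, hzW⟩
      exact hTmem _ hzW.2 (mem_image_of_mem f hzA)
    · show prj σ (Ψ (f (φ.symm (φ x')))) = _
      rw [h7]
  choose N hN hS using hloc
  obtain ⟨t, ht⟩ := CompactSpace.elim_nhds_subcover N hN
  set S : Set (Cm q) := {w | w ∈ T ∧ inc σ w ∈ closedBall (Ψ y₀) r ∧ w ∉ interior T} with hSdef
  have hSthin : SThin (Cm q) S := by
    refine (SThin.iUnion (S := fun x : t => (fun x' => prj σ (Ψ (f x'))) ''
      {x' | x' ∈ A ∧ x' ∈ N x ∧ f x' ∈ K ∧ prj σ (Ψ (f x')) ∉ interior T}) fun x => hS x).mono ?_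
    rintro w ⟨⟨h2, x', hx', h3⟩, h4, h5⟩
    have h6 : x' ∈ ⋃ y ∈ t, N y := by rw [ht]; trivial
    obtain ⟨y, hy, hxy⟩ := mem_iUnion₂.1 h6
    have h7 : prj σ (Ψ (f x')) = w := by
      rw [h3, Ψ.right_inv h2, prj_inc]
    refine mem_iUnion.2 ⟨⟨y, hy⟩, x', ⟨hx', hxy, ⟨inc σ w, h4, h3.symm⟩, ?_⟩, h7⟩
    rw [h7]; exact h5
  -- the ball of `ℂ^q`
  set c : Cm q := prj σ (Ψ y₀) with hc
  have hball : ∀ w ∈ ball c r, inc σ w ∈ ball (Ψ y₀) r := fun w hw => dist_inc σ h00 hr hw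
  have hcont : ∀ w ∈ ball c r, ContinuousAt (fun w => Ψ.symm (inc σ w)) w := fun w hw =>
    ContinuousAt.comp (g := Ψ.symm) (Ψ.continuousAt_symm (hb (ball_subset_closedBall
      (hball w hw))).1) (continuous_inc σ).continuousAt
  have hTc : ∀ w ∈ ball c r, w ∉ T → ∀ᶠ z in 𝓝 w, z ∉ T := by
    intro w hw hwT
    have h2 : Ψ.symm (inc σ w) ∉ f '' A := fun h =>
      hwT ⟨(hb (ball_subset_closedBall (hball w hw))).1, h⟩
    filter_upwards [(hcont w hw).eventually (hAc.isClosed.isOpen_compl.mem_nhds h2)] with z hz hzT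
    exact hz hzT.2
  have hSc : ∀ w ∈ ball c r, w ∉ S → ∀ᶠ z in 𝓝 w, z ∉ S := by
    intro w hw hwS
    by_cases hwT : w ∈ T
    · have h2 : w ∈ interior T := by
        by_contra hcon
        exact hwS ⟨hwT, ball_subset_closedBall (hball w hw), hcon⟩
      filter_upwards [isOpen_interior.mem_nhds h2] with z hz hzS
      exact hzS.2.2 hz
    · filter_upwards [hTc w hw hwT] with z hz hzS
      exact hz hzS.1
  have hTco : IsOpen {w | w ∈ ball c r ∧ w ∉ T} := by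
    rw [isOpen_iff_mem_nhds]
    rintro w ⟨hw, hwT⟩
    filter_upwards [isOpen_ball.mem_nhds hw, hTc w hw hwT] with z h2 h3
    exact ⟨h2, h3⟩
  set V : Set Y := O ∩ Ψ ⁻¹' (ball (Ψ y₀) r) with hV
  have hVo : IsOpen V := by
    have h2 : V = V₀ ∩ (Ψ.source ∩ Ψ ⁻¹' (ball (Ψ y₀) r)) := by
      rw [hV, hO, inter_comm Ψ.source V₀, inter_assoc]
    rw [h2]
    exact hV₀o.inter (Ψ.isOpen_inter_preimage isOpen_ball)
  have hVball : ∀ y ∈ V, prj σ (Ψ y) ∈ ball c r := fun y hy => dist_prj σ hr hy.2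
  refine ⟨V, hVo, ⟨⟨hy₀Ψ, hy₀V₀⟩, mem_ball_self hr⟩, ?_⟩
  rcases compl_ball hr hSc hSthin (U₁ := interior T) (U₂ := {w | w ∈ ball c r ∧ w ∉ T})
    isOpen_interior hTco (fun w hw hwS => by
      by_cases hwT : w ∈ T
      · left
        by_contra hcon
        exact hwS ⟨hwT, ball_subset_closedBall (hball w hw), hcon⟩
      · exact Or.inr ⟨hw, hwT⟩)
    (fun w hw hwS h2 h3 => h3.2 (interior_subset h2)) with h | h
  · left
    rintro y ⟨hyV, hyG⟩
    have h2 : inc σ (prj σ (Ψ y)) = Ψ y := inc_prj σ (hΨσ y hyV.1 hyG)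
    have h3 : prj σ (Ψ y) ∈ T := by
      by_contra hcon
      exact hcon (interior_subset (h _ (hVball y hyV) fun h4 => hcon h4.1))
    have h4 := h3.2
    rwa [h2, Ψ.left_inv hyV.1.1] at h4
  · right
    intro V' hV' hV'o hne
    obtain ⟨y, hyV', hyG⟩ := hne
    by_contra hcon
    push Not at hcon
    have h2 : inc σ (prj σ (Ψ y)) = Ψ y := inc_prj σ (hΨσ y (hV' hyV').1 hyG)
    have h3 : prj σ (Ψ y) ∈ interior T := by
      rw [mem_interior_iff_mem_nhds]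
      have h4 := hcont _ (hVball y (hV' hyV'))
      have h5 : Ψ.symm (inc σ (prj σ (Ψ y))) = y := by rw [h2, Ψ.left_inv (hV' hyV').1.1]
      have h5' : V' ∈ 𝓝 (Ψ.symm (inc σ (prj σ (Ψ y)))) := by
        rw [h5]; exact hV'o.mem_nhds hyV'
      filter_upwards [h4.eventually h5',
        isOpen_ball.mem_nhds (hVball y (hV' hyV'))] with w h6 h7
      have h8 := (hb (ball_subset_closedBall (hball w h7))).1
      refine ⟨h8, hcon _ ⟨h6, hΨG _ (hV' h6).1 ?_⟩⟩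
      rw [Ψ.right_inv h8, inc_same]
    exact (h _ (hVball y (hV' hyV')) fun h4 => h4.2.2 h3).2 (interior_subset h3)

/-- **The dichotomy**: the image of an analytic set, contained in the prime divisor `G`, is `G` or has
empty interior in `G`. -/
theorem dich_glob {A : Set X} (hf : ContMDiff 𝓘(ℂ, Cm n) 𝓘(ℂ, Cm (q + 1)) ω f)
    (hA : IsAnalyticSet (Cm n) A) {G : Set Y} (hG : J.IsPrime (Cm (q + 1)) G) (hAG : f '' A ⊆ G) :
    G ⊆ f '' A ∨ ∀ V, IsOpen V → (V ∩ sm (q + 1) G).Nonempty → ∃ y ∈ V ∩ sm (q + 1) G,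
      y ∉ f '' A := by
  by_contra hcon
  push Not at hcon
  obtain ⟨hne, V, hVo, ⟨y₁, hy₁V, hy₁⟩, hV⟩ := hcon
  have hAc : IsClosed (f '' A) :=
    (((isAnalyticSet_isClosed hA).isCompact).image hf.continuous).isClosed
  apply hne
  set U₁ : Set Y := {y | ∃ V, IsOpen V ∧ y ∈ V ∧ V ∩ sm (q + 1) G ⊆ f '' A} with hU₁
  set U₂ : Set Y := {y | ∃ V, IsOpen V ∧ y ∈ V ∧
    ∀ V' ⊆ V, IsOpen V' → (V' ∩ G).Nonempty → ∃ y ∈ V' ∩ G, y ∉ f '' A} with hU₂
  have h1 : IsOpen U₁ := by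
    rw [isOpen_iff_mem_nhds]
    rintro y ⟨V, h2, h3, h4⟩
    filter_upwards [h2.mem_nhds h3] with z hz
    exact ⟨V, h2, hz, h4⟩
  have h2 : IsOpen U₂ := by
    rw [isOpen_iff_mem_nhds]
    rintro y ⟨V, h2, h3, h4⟩
    filter_upwards [h2.mem_nhds h3] with z hz
    exact ⟨V, h2, hz, h4⟩
  have hdis : ∀ y ∈ sm (q + 1) G, y ∈ U₁ → y ∉ U₂ := by
    rintro y hy ⟨V₁, h3, h4, h5⟩ ⟨V₂, h6, h7, h8⟩
    obtain ⟨V₃, h9, h10, h11⟩ := eventually_nhds_iff.1 (sm_eventually hy)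
    obtain ⟨y', ⟨⟨h12, -, h13⟩, h14⟩, h15⟩ := h8 (V₁ ∩ (V₂ ∩ V₃))
      (inter_subset_right.trans inter_subset_left) (h3.inter (h6.inter h10))
      ⟨y, ⟨h4, h7, h11⟩, hy.1⟩
    exact h15 (h5 ⟨h12, h9 y' h13 h14⟩)
  have hy₁U : y₁ ∈ U₁ := ⟨V, hVo, hy₁V, fun y hy => hV y hy⟩
  have hsub : sm (q + 1) G ⊆ f '' A := by
    rcases isPreconnected_iff_subset_of_disjoint.1 hG.2.2.isPreconnected U₁ U₂ h1 h2
      (fun y hy => by
        obtain ⟨V, h3, h4, h5⟩ := dich hf hA hAG hy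
        rcases h5 with h5 | h5
        · exact Or.inl ⟨V, h3, h4, fun z hz => h5 ⟨hz.1, hz.2.1⟩⟩
        · exact Or.inr ⟨V, h3, h4, h5⟩) (by
        ext y
        simp only [mem_inter_iff, mem_empty_iff_false, iff_false]
        rintro ⟨h3, h4, h5⟩
        exact hdis y h3 h4 h5) with h3 | h3
    · intro y hy
      obtain ⟨V, -, h4, h5⟩ := h3 hy
      exact h5 ⟨h4, hy⟩
    · exact absurd (h3 hy₁) (hdis y₁ hy₁ hy₁U)
  exact (subset_closure_sm hG.2.1).trans (closure_minimal hsub hAc)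

/-- If `G` is contained in the union of the images of finitely many analytic sets of `f⁻¹(G)`, then
it is one of them. -/
theorem exists_dominating {𝒜 : Set (Set X)} (h𝒜 : 𝒜.Finite)
    (hf : ContMDiff 𝓘(ℂ, Cm n) 𝓘(ℂ, Cm (q + 1)) ω f)
    (hA : ∀ A ∈ 𝒜, IsAnalyticSet (Cm n) A) {G : Set Y} (hG : J.IsPrime (Cm (q + 1)) G)
    (hAG : ∀ A ∈ 𝒜, f '' A ⊆ G) (hcov : ∀ y ∈ G, ∃ A ∈ 𝒜, y ∈ f '' A) :
    ∃ A ∈ 𝒜, f '' A = G := by
  by_contra hcon
  push Not at hcon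
  have key : ∃ V, IsOpen V ∧ (V ∩ sm (q + 1) G).Nonempty ∧ ∀ A ∈ 𝒜, Disjoint V (f '' A) := by
    clear hcov
    induction 𝒜, h𝒜 using Set.Finite.induction_on with
    | empty =>
      refine ⟨univ, isOpen_univ, ?_, fun A hA => absurd hA (notMem_empty A)⟩
      rw [univ_inter]
      exact hG.2.2.nonempty
    | @insert A 𝒜 _ _ ih =>
      obtain ⟨V, h1, h2, h3⟩ := ih (fun A h => hA A (mem_insert_of_mem _ h))
        (fun A h => hAG A (mem_insert_of_mem _ h)) (fun A h => hcon A (mem_insert_of_mem _ h))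
      have hAc : IsClosed (f '' A) := (((isAnalyticSet_isClosed (hA A
        (mem_insert _ _))).isCompact).image hf.continuous).isClosed
      rcases dich_glob hf (hA A (mem_insert _ _)) hG (hAG A (mem_insert _ _)) with h4 | h4
      · exact absurd (Subset.antisymm (hAG A (mem_insert _ _)) h4) (hcon A (mem_insert _ _))
      · obtain ⟨y, hy, hyA⟩ := h4 V h1 h2
        refine ⟨V ∩ (f '' A)ᶜ, h1.inter hAc.isOpen_compl, ⟨y, ⟨hy.1, hyA⟩, hy.2⟩, ?_⟩
        rintro B (rfl | hB)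
        · exact disjoint_compl_left.mono_left inter_subset_right
        · exact (h3 B hB).mono_left inter_subset_left
  obtain ⟨V, h1, ⟨y, hyV, hy⟩, h3⟩ := key
  obtain ⟨A, hA', hyA⟩ := hcov y hy.1
  exact disjoint_left.1 (h3 A hA') hyV hyA

end

end Vale.Agent.P281.H383.Gen
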